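import Vale.Agent.P057T.Cfg.Cp

/-! Dummy exact coordinates of weight one as a new first group, with arbitrary shears. -/

open MvPolynomial Finset Matrix
open scoped Real

namespace Vale.Agent.P057T.K4

open Vale.Agent.P057T.Eq Vale.Agent.P057T.Cp

set_option linter.unusedSectionVars false

noncomputable section

variable {ι μ : Type} [Fintype ι] [DecidableEq ι] [Fintype μ] [DecidableEq μ]

/-- put the dummies to zero -/
def k0 (μ : Type) : MvPolynomial (μ ⊕ ι) ℝ →ₐ[ℝ] MvPolynomial ι ℝ := killCompl Sum.inr_injective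

/-- dummies of width `exp V`, top parts `Q` -/
def dum (G : GT ι) (μ : Type) [Fintype μ] [DecidableEq μ] (V : ℝ)
    (Q : ι → MvPolynomial (μ ⊕ ι) ℝ) : GT (μ ⊕ ι) where
  g := Sum.elim (fun _ => 0) fun a => G.g a + 1
  w := Sum.elim (fun _ => 1) G.w
  A := fromBlocks (Real.exp (-V) • 1) 0 0 G.A
  B := fromBlocks (Real.exp V • 1) 0 0 G.B
  q := Sum.elim (fun _ => 0) Q
  ex := univ.disjSum G.ex

/-- `Q` is a shear of `G.q` along the dummies -/
structure Sh (G : GT ι) (Q : ι → MvPolynomial (μ ⊕ ι) ℝ) : Prop where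
  k : ∀ a, k0 μ (Q a) = G.q a
  hm : ∀ a, IsWeightedHomogeneous (Sum.elim (fun _ => 1) G.w) (Q a) (G.w a)
  lo : ∀ a b, Sum.inr b ∈ (Q a).vars → G.g b < G.g a
  ex : ∀ a ∈ G.ex, Q a = 0

namespace Du

variable {G : GT ι} {V : ℝ} {Q : ι → MvPolynomial (μ ⊕ ι) ℝ} {s : ℕ}

theorem k0_inr (a : ι) : k0 μ (X (Sum.inr a) : MvPolynomial (μ ⊕ ι) ℝ) = X a := by
  rw [← rename_X, k0, killCompl_rename_app]

theorem k0_inl (j : μ) : k0 μ (X (Sum.inl j) : MvPolynomial (μ ⊕ ι) ℝ) = 0 := by
  rw [k0, killCompl, aeval_X, dif_neg (by simp)]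

theorem coeff_k0 (F : MvPolynomial (μ ⊕ ι) ℝ) (m : ι →₀ ℕ) :
    coeff m (k0 μ F) = coeff (m.mapDomain Sum.inr) F := coeff_killCompl _

theorem th_inl (j : μ) : (dum G μ V Q).th (Sum.inl j) = C (Real.exp (-V)) * X (Sum.inl j) := by
  simp [GT.th, dum, Fintype.sum_sum_type, one_apply, apply_ite C, ite_mul]

theorem th_inr (a : ι) :
    (dum G μ V Q).th (Sum.inr a) = ∑ b, C (G.A a b) * (X (Sum.inr b) - Q b) := by
  simp [GT.th, dum, Fintype.sum_sum_type]

theorem k0_th (h : Sh G Q) (x : μ ⊕ ι) :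
    k0 μ ((dum G μ V Q).th x) = aeval G.th (k0 μ (X x)) := by
  rcases x with j | a
  · rw [th_inl, map_mul, k0_inl, mul_zero, map_zero]
  · rw [th_inr, k0_inr, aeval_X, map_sum, GT.th]
    refine sum_congr rfl fun b _ => ?_
    rw [map_mul, map_sub, k0_inr, h.k, algHom_C]
    rfl

theorem k0_aeval (h : Sh G Q) (b : MvPolynomial (μ ⊕ ι) ℝ) :
    k0 μ (aeval (dum G μ V Q).th b) = aeval G.th (k0 μ b) := by
  have : (k0 μ).comp (aeval (dum G μ V Q).th) = (aeval G.th).comp (k0 μ) :=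
    algHom_ext fun x => by simp only [AlgHom.comp_apply, aeval_X]; exact k0_th h x
  exact AlgHom.congr_fun this b

theorem l1_k0 (b : MvPolynomial (μ ⊕ ι) ℝ) : l1 (k0 μ b) ≤ l1 b := by
  classical
  have hi : Function.Injective (Finsupp.mapDomain (M := ℕ) (Sum.inr : ι → μ ⊕ ι)) :=
    Finsupp.mapDomain_injective Sum.inr_injective
  unfold l1
  simp only [coeff_k0]
  rw [← sum_image (f := fun m => |coeff m b|) (fun x _ y _ h => hi h)]
  refine sum_le_sum_of_subset_of_nonneg (fun m hm => ?_) fun _ _ _ => abs_nonneg _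
  obtain ⟨u, hu, rfl⟩ := mem_image.1 hm
  rw [mem_support_iff, coeff_k0] at hu
  exact mem_support_iff.2 hu

theorem wt_inr (m : ι →₀ ℕ) :
    Finsupp.weight (Sum.elim (fun _ : μ => 1) G.w) (m.mapDomain Sum.inr) = Finsupp.weight G.w m := by
  rw [Finsupp.weight_apply, Finsupp.weight_apply,
    Finsupp.sum_mapDomain_index (by simp) (fun _ _ _ => add_smul _ _ _)]
  rfl

theorem ok (hG : G.Ok s) (h : Sh G Q) : (dum G μ V Q).Ok (s + 1) where
  w1 := by rintro (j | a); exacts [le_rfl, hG.w1 a]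
  ws := by rintro (j | a); exacts [Nat.le_add_left 1 s, (hG.ws a).trans (Nat.le_succ s)]
  gs := by rintro (j | a); exacts [Nat.succ_pos s, Nat.succ_lt_succ (hG.gs a)]
  AB := by simp [dum, fromBlocks_multiply, hG.AB, smul_smul, ← Real.exp_add]
  blk := by
    rintro (j | a) (j' | b) hab
    · exact ⟨rfl, rfl⟩
    · simp [dum] at hab
    · simp [dum] at hab
    · exact ⟨congrArg (· + 1) (hG.blk a b hab).1, (hG.blk a b hab).2⟩
  qh := by rintro (j | a); exacts [isWeightedHomogeneous_zero _ _ _, h.hm a]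
  ql := by
    rintro (j | a) b hb
    · simp [dum] at hb
    · rcases b with j | b
      · exact Nat.succ_pos _
      · exact Nat.succ_lt_succ (h.lo a b hb)
  qe := by
    rintro (j | a) ha
    · rfl
    · exact h.ex a (by simpa [dum] using ha)

theorem big0 (H : ℝ) : (dum G μ V Q).Big 0 H := by
  rintro e k I hk - - - - (j | a) ha
  · simp [dum]
  · exact absurd (hk _ ha).1 (Nat.succ_ne_zero _)

theorem big (h : Sh G Q) {g : ℕ} {H : ℝ} (hb : G.Big g H) : (dum G μ V Q).Big (g + 1) H := by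
  rintro e k I hk hz hl hh ⟨b, hb1, hb2⟩ (j | a) ha
  · simp [dum]
  have h1 : k0 μ (lin (cz k)) = lin (cz fun a => k (Sum.inr a)) := by
    simp [lin, cz, Fintype.sum_sum_type, k0_inl, k0_inr]
  have := hb e (fun a => k (Sum.inr a)) (k0 μ I)
    (fun a ha => ⟨Nat.succ_injective (hk _ ha).1, (hk _ ha).2⟩)
    (fun m => by rw [coeff_k0]; exact hz _)
    (fun c hc => by
      obtain ⟨m, hm, hc⟩ := (mem_vars_iff_mem_support c).1 hc
      rw [mem_support_iff, coeff_k0] at hm
      refine Nat.lt_of_succ_lt_succ (hl (Sum.inr c) ((mem_vars_iff_mem_support _).2 ⟨_, mem_support_iff.2 hm, ?_⟩))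
      rw [Finsupp.mem_support_iff, Finsupp.mapDomain_apply Sum.inr_injective]
      exact Finsupp.mem_support_iff.1 hc)
    (fun m hm => by rw [coeff_k0] at hm; rw [← wt_inr (μ := μ)]; exact hh hm)
    ⟨k0 μ b, by rw [← k0_aeval (V := V) h, hb1, map_add, h1], (l1_k0 b).trans hb2⟩ a ha
  simpa [dum] using this

theorem small0 {η : ℝ} (hη : Real.exp (-V) ≤ η) : (dum G μ V Q).Small 0 η := by
  rintro (j | a) - hg
  · refine ⟨Pi.single (Sum.inl j) 1, fun i _ => by rw [Pi.single_apply], ?_, ?_⟩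
    · intro i hi
      obtain rfl : i = Sum.inl j := by
        by_contra hne
        exact hi (Pi.single_eq_of_ne hne _)
      exact ⟨rfl, rfl⟩
    · have h0 : 0 ≤ η := (Real.exp_pos _).le.trans hη
      rintro (j' | a)
      · by_cases hj : j' = j
        · simpa [dum, Pi.single_apply, hj, abs_of_pos (Real.exp_pos _)] using hη
        · simpa [dum, Pi.single_apply, hj] using h0
      · simpa [dum, Pi.single_apply] using h0
  · exact absurd hg (Nat.succ_ne_zero _)

theorem small {g : ℕ} {η : ℝ} (hs : G.Small g η) : (dum G μ V Q).Small (g + 1) η := by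
  rintro (j | a) ha hg
  · exact absurd hg.symm (Nat.succ_ne_zero _)
  obtain ⟨v, h1, h2, h3⟩ := hs a (by simpa [dum] using ha) (Nat.succ_injective hg)
  refine ⟨Sum.elim 0 v, ?_, ?_, ?_⟩
  · rintro (j | i) hi
    · simp
    · simpa using h1 i (by simpa [dum] using hi)
  · rintro (j | i) hi
    · exact absurd rfl hi
    · exact ⟨congrArg (· + 1) (h2 i hi).1, (h2 i hi).2⟩
  · rintro (j | i)
    · simpa [dum, Fintype.sum_sum_type] using (abs_nonneg _).trans (h3 a)
    · simpa [dum, Fintype.sum_sum_type] using h3 i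

theorem wd {WW : ℕ → ℝ} (hW : G.Wd WW) (hV : 0 ≤ V) : (dum G μ V Q).Wd fun g => WW (g - 1) := by
  obtain ⟨Um, Vm, h1, h2, h3⟩ := hW.bd
  refine ⟨fun a b h => hW.anti (Nat.sub_le_sub_right h 1), fun g => hW.nn _,
    fromBlocks 1 0 0 Um, fromBlocks 1 0 0 Vm, by simp [fromBlocks_multiply, h1], ?_, ?_⟩
  · rintro U hU (j | a) (j' | b) hab
    · have : j = j' := by
        by_contra hne
        simp [hne] at hab
      rw [this]
    · simp at hab
    · simp at hab
    · have := h2 U.toRight (fun a b hab => by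
        simpa using hU (Sum.inr a) (Sum.inr b) hab) a b hab
      simpa using this
  · have e1 : Real.exp (-V) ≤ Real.exp (WW 0) := Real.exp_le_exp.2 (by linarith [hW.nn 0])
    rintro (j | a) (j' | b)
    · by_cases hj : j = j'
      · simpa [dum, Fintype.sum_sum_type, one_apply, hj, abs_of_pos (Real.exp_pos _)] using e1
      · simp [dum, Fintype.sum_sum_type, one_apply, hj, (Real.exp_pos _).le]
    · simp [dum, Fintype.sum_sum_type, (Real.exp_pos _).le]
    · simp [dum, Fintype.sum_sum_type, (Real.exp_pos _).le]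
    · simpa [dum, Fintype.sum_sum_type] using h3 a b

theorem num {x : ℝ} (hx : 0 < x) (hV : 2 * x ≤ V) : Real.exp (-V) ≤ Real.exp (-x) * x⁻¹ := by
  have h1 : Real.exp (-x) ≤ x⁻¹ := by
    rw [Real.exp_neg]
    exact inv_anti₀ hx (by linarith [Real.add_one_le_exp x])
  calc Real.exp (-V) ≤ Real.exp (-x) * Real.exp (-x) := by
        rw [← Real.exp_add]; exact Real.exp_le_exp.2 (by linarith)
    _ ≤ _ := mul_le_mul_of_nonneg_left h1 (Real.exp_pos _).le

/-- **the sheared product tower is regular** -/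
theorem rr (h : Sh G Q) {WW : ℕ → ℝ} {c Y : ℝ} (hR : Rr G s WW c Y) (hc : 0 < c) (hY : 0 < Y)
    (hV : 2 * (c * (Y + WW 0)) ≤ V) : Rr (dum G μ V Q) (s + 1) (fun g => WW (g - 1)) c Y := by
  have hx : 0 < c * (Y + WW 0) := mul_pos hc (by linarith [hR.wd.nn 0])
  refine ⟨ok hR.ok h, wd hR.wd (by linarith), ?_, ?_⟩
  · rintro (_ | g) hg
    · exact big0 _
    · exact big h (hR.big g (by omega))
  · rintro (_ | g) hg
    · exact small0 (num hx hV)
    · exact small (hR.small g (by omega))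

theorem dv (U : Finset (μ ⊕ ι)) :
    (dum G μ V Q).dv U = Real.exp V ^ U.toLeft.card * G.dv U.toRight := by
  let e : U.toLeft ⊕ U.toRight ≃ U := Equiv.ofBijective
    (Sum.elim (fun j => ⟨Sum.inl j.1, mem_toLeft.1 j.2⟩) fun a => ⟨Sum.inr a.1, mem_toRight.1 a.2⟩)
    ⟨by
      rintro (j | a) (j' | a') h
      · exact congrArg _ (Subtype.ext (Sum.inl_injective (congrArg Subtype.val h)))
      · exact absurd (congrArg Subtype.val h) Sum.inl_ne_inr
      · exact absurd (congrArg Subtype.val h) Sum.inr_ne_inl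
      · exact congrArg _ (Subtype.ext (Sum.inr_injective (congrArg Subtype.val h))),
    by
      rintro ⟨j | a, h⟩
      · exact ⟨Sum.inl ⟨j, mem_toLeft.2 h⟩, rfl⟩
      · exact ⟨Sum.inr ⟨a, mem_toRight.2 h⟩, rfl⟩⟩
  have h1 : ((dum G μ V Q).B.submatrix (Subtype.val : U → _) (Subtype.val : U → _)).submatrix e e =
      fromBlocks (Real.exp V • 1) 0 0
        (G.B.submatrix (Subtype.val : U.toRight → _) (Subtype.val : U.toRight → _)) := by
    ext (j | a) (j' | b)
    · show Real.exp V * (1 : Matrix μ μ ℝ) j j' = Real.exp V * (1 : Matrix U.toLeft U.toLeft ℝ) j j'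
      simp only [Matrix.one_apply, Subtype.ext_iff]
    · rfl
    · rfl
    · rfl
  rw [GT.dv, ← det_submatrix_equiv_self e, h1, det_fromBlocks_zero₂₁, det_smul, det_one, mul_one,
    abs_mul, abs_of_pos (pow_pos (Real.exp_pos _) _), Fintype.card_coe]
  rfl

end Du

end

end Vale.Agent.P057T.K4
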