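import Vale.Agent.P057T.K4.Tr0
import Vale.Agent.P057T.Eq.Bdw
import Vale.Agent.P057T.Eq.Mono

/-! Regularity of the extension by one level. -/

set_option linter.all false

open MvPolynomial Finset Matrix
open scoped Real

namespace Vale.Agent.P057T.K4

open Vale.Agent.P057T.Eq Vale.Agent.P057T.Cp

noncomputable section

namespace ExrP

variable {ι κ : Type} [Fintype ι] [DecidableEq ι] [Fintype κ] [DecidableEq κ]
  {G : GT ι} {s g l : ℕ} {q : κ → MvPolynomial ι ℝ}

/-- substitute `f` for the new variables -/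
def su (f : κ → MvPolynomial ι ℝ) : MvPolynomial (ι ⊕ κ) ℝ →ₐ[ℝ] MvPolynomial ι ℝ :=
  aeval (Sum.elim X f)

theorem su_ren (f : κ → MvPolynomial ι ℝ) (F : MvPolynomial ι ℝ) : su f (rename Sum.inl F) = F := by
  unfold su
  rw [aeval_rename]
  exact aeval_X_left_apply F

theorem su_th (b : MvPolynomial (ι ⊕ κ) ℝ) :
    su q (aeval (ext G g l q).th b) = aeval G.th (su 0 b) := by
  induction b using MvPolynomial.induction_on with
  | C a => simp only [algHom_C, AlgHom.commutes]
  | add p p' hp hq => simp only [map_add, hp, hq]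
  | mul_X p x hp =>
    simp only [map_mul, hp, aeval_X]
    congr 1
    rcases x with a | k
    · rw [th_inl, su_ren]
      simp [su]
    · rw [th_inr, map_sub, su_ren]
      simp [su]

theorem nrm_su (b : MvPolynomial (ι ⊕ κ) ℝ) : L1.nrm (su (0 : κ → MvPolynomial ι ℝ) b) ≤ L1.nrm b :=
  L1.nrm_aeval_le_one (by rintro (a | k) <;> simp) b

/-- bounded forms of the extension give bounded forms of the base -/
theorem bd_su {F : MvPolynomial (ι ⊕ κ) ℝ} {H : ℝ} (h : (ext G g l q).Bd F H) : G.Bd (su q F) H := by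
  obtain ⟨b, h1, h2⟩ := h
  exact ⟨su 0 b, by rw [← h1, su_th], (nrm_su b).trans h2⟩

theorem su_lo {I : MvPolynomial (ι ⊕ κ) ℝ} {g' : ℕ} (hg : g' ≤ g) (h : (ext G g l q).Lo g' I)
    (f : κ → MvPolynomial ι ℝ) : su f I = su 0 I := by
  refine Chart.aeval_congr_vars ?_
  rintro (a | k) hx
  · rfl
  · exact absurd (h _ hx) (not_lt.2 hg)

theorem int_su {I : MvPolynomial (ι ⊕ κ) ℝ} (h : IsZ I) : IsZ (su (0 : κ → MvPolynomial ι ℝ) I) :=
  L1.IsInt.aeval h (by
    rintro (a | k)
    · exact L1.isInt_X a
    · exact L1.isInt_zero)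

theorem hm_su {I : MvPolynomial (ι ⊕ κ) ℝ} {e : ℕ} (h : (ext G g l q).Hm e I) :
    G.Hm e (su (0 : κ → MvPolynomial ι ℝ) I) :=
  Chart.hom_aeval h (by
    rintro (a | k)
    · exact isWeightedHomogeneous_X ℝ G.w a
    · exact isWeightedHomogeneous_zero _ _ _)

theorem lo_su {I : MvPolynomial (ι ⊕ κ) ℝ} {g' : ℕ} (h : (ext G g l q).Lo g' I) :
    G.Lo g' (su (0 : κ → MvPolynomial ι ℝ) I) :=
  Chart.vars_aeval (P := fun j => G.g j < g') (by
    rintro (a | k) hx
    · exact Chart.vars_X' (h _ hx)
    · intro j hj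
      simp at hj)

theorem big_lo {g' : ℕ} {H : ℝ} (hg : g' < g) (hB : G.Big g' H) : (ext G g l q).Big g' H := by
  intro e k I hk hI hl hh hb
  have h0 : ∀ x, k (Sum.inr x) = 0 := fun x => by
    by_contra h
    exact hg.ne' (hk _ h).1
  rintro (a | x) ha
  · have hb' := bd_su hb
    rw [map_add, su_lo hg.le hl] at hb'
    have e1 : su q (lin (cz k)) = lin (cz fun a => k (Sum.inl a)) := by
      simp [lin, su, cz, Fintype.sum_sum_type, h0]
    rw [e1] at hb'
    have := hB e (fun a => k (Sum.inl a)) (su 0 I) (fun a ha => hk _ ha) (int_su hI) (lo_su hl)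
      (hm_su hh) hb' a ha
    simpa [ext] using this
  · exact (ha (h0 x)).elim

theorem small_ext {g' : ℕ} {η : ℝ} (hη : 0 ≤ η) (h : G.Small g' η) : (ext G g l q).Small g' η := by
  rintro (a | x) hj hg
  · have ha : a ∈ G.ex := by simpa [ext] using hj
    obtain ⟨v, h1, h2, h3⟩ := h a ha hg
    refine ⟨Sum.elim v 0, ?_, ?_, ?_⟩
    · rintro (i | y) hi
      · have hi' : i ∈ G.ex := by simpa [ext] using hi
        simpa using h1 i hi'
      · simp [ext] at hi
    · rintro (i | y) hi
      · exact h2 i hi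
      · exact (hi rfl).elim
    · rintro (i | y)
      · simpa [ext, Fintype.sum_sum_type] using h3 i
      · simpa [ext, Fintype.sum_sum_type] using hη
  · simp [ext] at hj

theorem wd_ext {WW : ℕ → ℝ} (hlo : ∀ a, G.g a < g) (hW : G.Wd WW) :
    (ext G g l q).Wd fun g' => if g' < g then WW g' else 0 := by
  obtain ⟨Um, Vm, h1, h2, h3⟩ := hW.bd
  refine ⟨fun a b hab => ?_, fun a => ?_, fromBlocks Um 0 0 1, fromBlocks Vm 0 0 1, ?_, ?_, ?_⟩
  · show (if b < g then WW b else 0) ≤ if a < g then WW a else 0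
    split_ifs with hb ha ha
    · exact hW.anti hab
    · exact absurd (hab.trans_lt hb) ha
    · exact hW.nn a
    · exact le_rfl
  · show 0 ≤ if a < g then WW a else 0
    split_ifs
    · exact hW.nn a
    · exact le_rfl
  · simp [fromBlocks_multiply, h1]
  · intro V hV
    rintro (a | x) (b | y) hab
    · have := h2 V.toLeft (fun a b hab => by
        simpa using hV (Sum.inl a) (Sum.inl b) hab) a b hab
      simpa using this
    · simp at hab
    · simp at hab
    · have : x = y := by
        by_contra hxy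
        simp [one_apply, hxy] at hab
      rw [this]
  · rintro (a | x) (b | y)
    · have := h3 a b
      simpa [ext, Fintype.sum_sum_type, hlo a] using this
    · simpa [ext, Fintype.sum_sum_type] using (Real.exp_pos _).le
    · simp [ext, Fintype.sum_sum_type]
    · by_cases hxy : x = y <;> simp [ext, Fintype.sum_sum_type, one_apply, hxy]

end ExrP

open ExrP in
theorem exr : EXR := by
  intro s g l ι κ _ _ _ _ G q WW c Y hN hc hY hR hB
  refine ⟨ext_ok hN, wd_ext hN.lo hR.wd, fun g' hg' => ?_, fun g' hg' => ?_⟩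
  · rcases lt_trichotomy g' g with h | h | h
    · simp only [if_pos h]
      exact big_lo h (hR.big g' hg')
    · subst h
      simpa using hB
    · intro e k I hk _ _ _ _
      rintro (a | x) ha
      · exact absurd ((hk _ ha).1 ▸ hN.lo a : g' < g) h.not_gt
      · exact absurd (hk _ ha).1 h.ne
  · by_cases h : g' < g
    · have hw := hR.wd.nn g'
      have hw1 := hR.wd.nn (g' + 1)
      refine small_ext (by simp only [if_pos h]; positivity) ((hR.small g' hg').mono ?_)
      simp only [if_pos h]
      refine mul_le_mul_of_nonneg_right (Real.exp_le_exp.2 ?_) (by positivity)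
      split_ifs
      · exact le_rfl
      · nlinarith
    · rintro (a | x) hj hg
      · exact absurd ((hg : G.g a = g') ▸ hN.lo a) h
      · simp [ext] at hj

end

end Vale.Agent.P057T.K4
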