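import Vale.Agent.P057T.Sb.Dilb

/-! The random integer shear: one `f` catches the expected share of a family. -/

open MvPolynomial Finset
open scoped BigOperators

namespace Vale.Agent.P057T.K4

open Vale.Agent.P057T.Eq Vale.Agent.P057T.Cfg Vale.Agent.P057T.Sb

set_option linter.unusedSectionVars false

noncomputable section

variable {ι : Type} [Fintype ι] [DecidableEq ι] {G : GT ι} {m k : ℕ}

/-- the box `τ0 + M t` of the dummies as a substitution -/
def sd (τ : Fin k → ℤ) (M : Fin k → Fin m → ℤ) : Option (Fin k) → Option (Fin m) → ℤ := fun v v' =>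
  v.elim (e0 m v') fun j => v'.elim (τ j) (M j)

/-- `M` has a left inverse modulo `D` -/
def Li (D : ℤ) (M : Fin k → Fin m → ℤ) : Prop :=
  ∃ L : Fin m → Fin k → ℤ, ∀ l l', D ∣ ∑ j, L l j * M j l' - if l = l' then 1 else 0

/-- `β (d t) = f (d (τ0 + M t))` modulo `d ^ w` -/
def Cg (d : ℕ) (τ : Fin k → ℤ) (M : Fin k → Fin m → ℤ) (β : Bx G m) (f : Bx G k) : Prop :=
  ∀ y, (d : ℤ) ^ G.w y.1.1 ∣ Ph (sx 0 d) β y - Ph (sd τ M) (Ph (sx 0 d) f) y

/-- the reduced boxes: no top coefficients -/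
def Rd (G : GT ι) (k d : ℕ) : Finset (Bx G k) :=
  Fintype.piFinset fun x => Ico (0 : ℤ) ((d : ℤ) ^ x.1.2 none)

namespace Sz

section alg

variable {R V V' V'' : Type} [CommRing R] [Fintype V] [DecidableEq V] [Fintype V'] [DecidableEq V']
  [Fintype V''] [DecidableEq V''] {w : ι → ℕ}

theorem sb_sb (S : V → V' → ℤ) (S' : V' → V'' → ℤ) (Q : MvPolynomial V R) :
    sb R S' (sb R S Q) = sb R (fun v v'' => ∑ v', S v v' * S' v' v'') Q := by
  have : (sb R S').comp (sb R S) = sb R (fun v v'' => ∑ v', S v v' * S' v' v'') :=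
    algHom_ext fun v => by
      simp only [AlgHom.comp_apply, sb, aeval_X, le, map_sum, map_mul, algHom_C, mul_sum,
        Int.cast_sum, Int.cast_mul, sum_mul, algebraMap_eq]
      rw [sum_comm]
      exact sum_congr rfl fun _ _ => sum_congr rfl fun _ _ => by ring
  exact AlgHom.congr_fun this Q

theorem Ph_Ph (S : V → V' → ℤ) (S' : V' → V'' → ℤ) (z : JI w V → R) :
    Ph S' (Ph S z) = Ph (fun v v'' => ∑ v', S v v' * S' v' v'') z := by
  funext y
  rw [Ph, pl_Ph, sb_sb]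
  rfl

theorem Ph_id (S : V → V → ℤ) (h : ∀ v v', (S v v' : R) = if v = v' then 1 else 0)
    (z : JI w V → R) : Ph S z = z := by
  funext y
  have : sb R S = AlgHom.id R _ := algHom_ext fun v => by
    simp [sb, le, h, apply_ite C, ite_mul]
  rw [Ph, this, AlgHom.id_apply, coeff_pl]

theorem Ph_dvd (S : V → V' → ℤ) (c : ι → ℤ) (z : JI w V → ℤ) (h : ∀ x, c x.1.1 ∣ z x)
    (y : JI w V') : c y.1.1 ∣ Ph S z y := by
  rw [← Int.natAbs_dvd, ← ZMod.intCast_zmod_eq_zero_iff_dvd]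
  have h1 := Ph_map (Int.castRingHom (ZMod (c y.1.1).natAbs)) S z y
  have h2 : pl (fun x => Int.castRingHom (ZMod (c y.1.1).natAbs) (z x)) y.1.1 = 0 := by
    refine sum_eq_zero fun x _ => ?_
    split_ifs with hx
    · have : Int.castRingHom (ZMod (c y.1.1).natAbs) (z x) = 0 :=
        (ZMod.intCast_zmod_eq_zero_iff_dvd _ _).2 (Int.natAbs_dvd.2 (hx ▸ h x))
      simp only [this, map_zero]
    · rfl
  refine h1.trans ?_
  rw [Ph, h2, map_zero, coeff_zero]

end alg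

theorem split (y : JI G.w (Option (Fin m))) :
    G.w y.1.1 = (y.1.2.degree - y.1.2 none) + y.1.2 none := by
  rw [← JI_deg y, Nat.sub_add_cancel (Finsupp.le_degree _ _)]

theorem comm (d : ℤ) (τ : Fin k → ℤ) (M : Fin k → Fin m → ℤ) (f : Bx G k) :
    Ph (sd τ M) (Ph (sx 0 d) f) = Ph (sx 0 d) (Ph (sd (d • τ) M) f) := by
  rw [Ph_Ph, Ph_Ph]
  congr 1
  funext v v'
  rcases v with _ | j <;> rcases v' with _ | l <;>
    simp [sd, sx, e0, Fintype.sum_option, mul_comm]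

theorem cg_of {d : ℕ} {τ : Fin k → ℤ} {M : Fin k → Fin m → ℤ} {β : Bx G m} {f : Bx G k}
    (h : ∀ y, (d : ℤ) ^ y.1.2 none ∣ β y - Ph (sd ((d : ℤ) • τ) M) f y) : Cg d τ M β f := by
  intro y
  rw [comm, Dilb.Ph_sc, Dilb.Ph_sc, split, pow_add, ← mul_sub]
  exact mul_dvd_mul_left _ (h y)

theorem cg_add {d : ℕ} {τ : Fin k → ℤ} {M : Fin k → Fin m → ℤ} {β β' : Bx G m} {f f' : Bx G k}
    (h : Cg d τ M β f) (h' : Cg d τ M β' f') : Cg d τ M (β + β') (f + f') := by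
  intro y
  have := dvd_add (h y) (h' y)
  rw [Ph_add, Ph_add, Ph_add, Pi.add_apply, Pi.add_apply, add_sub_add_comm]
  exact this

theorem cg_lat {d : ℕ} (τ : Fin k → ℤ) (M : Fin k → Fin m → ℤ) {f : Bx G k}
    (h : ∀ x, (d : ℤ) ^ x.1.2 none ∣ f x) : Cg d τ M (0 : Bx G m) f := by
  intro y
  rw [Dilb.Ph_sc, Pi.zero_apply, mul_zero, zero_sub, dvd_neg]
  refine Ph_dvd _ (fun a => (d : ℤ) ^ G.w a) _ (fun x => ?_) y
  rw [Dilb.Ph_sc, split, pow_add]
  exact mul_dvd_mul_left _ (h x)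

/-- reduction of the coefficients -/
def rd (d : ℕ) (f : Bx G k) : Bx G k := fun x => f x % (d : ℤ) ^ x.1.2 none

theorem rd_mem {d : ℕ} (hd : 1 ≤ d) (f : Bx G k) : rd d f ∈ Rd G k d := by
  have : (0 : ℤ) < d := by exact_mod_cast hd
  exact Fintype.mem_piFinset.2 fun x =>
    mem_Ico.2 ⟨Int.emod_nonneg _ (pow_pos this _).ne', Int.emod_lt_of_pos _ (pow_pos this _)⟩

theorem rd_dvd (d : ℕ) (f : Bx G k) (x) : (d : ℤ) ^ x.1.2 none ∣ rd d f x - f x :=
  dvd_sub_comm.1 (Int.dvd_self_sub_emod)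

theorem sur {s d : ℕ} (hw : ∀ a, G.w a ≤ s) (τ : Fin k → ℤ) {M : Fin k → Fin m → ℤ}
    (hM : Li ((d : ℤ) ^ s) M) (β : Bx G m) : ∃ f : Bx G k, Cg d τ M β f := by
  obtain ⟨L, hL⟩ := hM
  refine ⟨Ph (sd (fun l => -∑ j, L l j * ((d : ℤ) * τ j)) L) β, cg_of fun y => ?_⟩
  refine (pow_dvd_pow (d : ℤ) (show y.1.2 none ≤ s by
    have := split y; have := hw y.1.1; omega)).trans ?_
  rw [Ph_Ph, ← Nat.cast_pow, ← ZMod.intCast_zmod_eq_zero_iff_dvd, Int.cast_sub, sub_eq_zero]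
  refine Eq.trans ?_ (Ph_map (Int.castRingHom (ZMod (d ^ s))) _ β y).symm
  rw [Ph_id]
  · rfl
  · rintro (_ | l) (_ | l')
    · simp [sd, e0, Fintype.sum_option]
    · simp [sd, e0, Fintype.sum_option]
    · simp [sd, e0, Fintype.sum_option]
    · have := (ZMod.intCast_zmod_eq_zero_iff_dvd
        (∑ j, L l j * M j l' - if l = l' then 1 else 0) (d ^ s)).2
        (by rw [Nat.cast_pow]; exact hL l l')
      rw [Int.cast_sub, sub_eq_zero] at this
      simpa [sd, e0, Fintype.sum_option] using this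

open Classical in
/-- every box is caught by the expected number of shears -/
theorem cnt {s d : ℕ} (hw : ∀ a, G.w a ≤ s) (hd : 1 ≤ d) (τ : Fin k → ℤ) {M : Fin k → Fin m → ℤ}
    (hM : Li ((d : ℤ) ^ s) M) (β : Bx G m) :
    (Rd G k d).card ≤ (Rd G m d).card * ((Rd G k d).filter (Cg d τ M β)).card := by
  have h1 : ∀ β' : Bx G m, ((Rd G k d).filter (Cg d τ M β')).card ≤
      ((Rd G k d).filter (Cg d τ M β)).card := fun β' => by
    obtain ⟨f0, h0⟩ := sur hw τ hM (β - β')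
    refine card_le_card_of_injOn (fun f => rd d (f + f0)) (fun f hf => ?_) fun f hf f' hf' e => ?_
    · have hf := (mem_filter.1 (mem_coe.1 hf)).2
      refine mem_coe.2 (mem_filter.2 ⟨rd_mem hd _, ?_⟩)
      have := cg_add (cg_add hf h0) (cg_lat τ M (f := rd d (f + f0) - (f + f0)) (rd_dvd d _))
      simpa using this
    · funext x
      have a1 := mem_Ico.1 (Fintype.mem_piFinset.1 (mem_filter.1 (mem_coe.1 hf)).1 x)
      have a2 := mem_Ico.1 (Fintype.mem_piFinset.1 (mem_filter.1 (mem_coe.1 hf')).1 x)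
      have e1 : (f x + f0 x) % (d : ℤ) ^ x.1.2 none = (f' x + f0 x) % (d : ℤ) ^ x.1.2 none :=
        congrFun e x
      have e2 := Int.ModEq.add_right_cancel' _ e1
      rwa [Int.ModEq, Int.emod_eq_of_lt a1.1 a1.2, Int.emod_eq_of_lt a2.1 a2.2] at e2
  calc (Rd G k d).card ≤ ((Rd G m d).biUnion fun β' => (Rd G k d).filter (Cg d τ M β')).card :=
        card_le_card fun f hf => mem_biUnion.2 ⟨_, rd_mem hd (Ph (sd ((d : ℤ) • τ) M) f),
          mem_filter.2 ⟨hf, cg_of fun y => rd_dvd d _ y⟩⟩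
    _ ≤ _ := card_biUnion_le_card_mul _ _ _ fun β' _ => h1 β'

theorem card_Rd (G : GT ι) (m d : ℕ) :
    (Rd G m d).card = ∏ y : JI G.w (Option (Fin m)), d ^ y.1.2 none := by
  rw [Rd, Fintype.card_piFinset]
  refine prod_congr rfl fun y _ => ?_
  rw [Int.card_Ico, sub_zero, ← Nat.cast_pow, Int.toNat_natCast]

end Sz

open Classical in
/-- **one shear for a weighted family** -/
theorem shz {α : Type} {s d : ℕ} (hw : ∀ a, G.w a ≤ s) (hd : 1 ≤ d) (E : Finset α) (u : α → ℝ)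
    (β : α → Bx G m) (τ : α → Fin k → ℤ) (M : α → Fin k → Fin m → ℤ) (hu : ∀ e ∈ E, 0 ≤ u e)
    (hM : ∀ e ∈ E, Li ((d : ℤ) ^ s) (M e)) :
    ∃ f ∈ Rd G k d, ∑ e ∈ E, u e ≤ (∏ y : JI G.w (Option (Fin m)), (d : ℝ) ^ y.1.2 none) *
      ∑ e ∈ E.filter fun e => Cg d (τ e) (M e) (β e) f, u e := by
  have hq : (∏ y : JI G.w (Option (Fin m)), (d : ℝ) ^ y.1.2 none) = ((Rd G m d).card : ℝ) := by
    rw [Sz.card_Rd]; push_cast; rfl
  rw [hq]
  refine exists_le_of_sum_le ⟨_, Sz.rd_mem hd 0⟩ ?_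
  simp only [sum_filter, mul_sum]
  rw [sum_comm, sum_comm (s := Rd G k d)]
  refine sum_le_sum fun e he => ?_
  rw [← mul_sum, ← sum_filter, sum_const, sum_const, nsmul_eq_mul, nsmul_eq_mul, ← mul_assoc]
  refine mul_le_mul_of_nonneg_right ?_ (hu e he)
  exact_mod_cast Sz.cnt hw hd (τ e) (hM e he) (β e)

end

end Vale.Agent.P057T.K4
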