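import Vale.Agent.P057T.Cfg.Cp

/-! One new level over a regular base: definitions, rows, and the basic algebra. -/

open MvPolynomial Finset Matrix
open scoped Real

namespace Vale.Agent.P057T.K4

open Vale.Agent.P057T.Eq Vale.Agent.P057T.Cp

set_option linter.unusedSectionVars false

noncomputable section

variable {ι κ : Type} [Fintype ι] [DecidableEq ι] [Fintype κ] [DecidableEq κ]

/-- the base tower with a new group `g` of weight `l`, unit windows, no exact new variable -/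
def ext (G : GT ι) (g l : ℕ) (q : κ → MvPolynomial ι ℝ) : GT (ι ⊕ κ) where
  g := Sum.elim G.g fun _ => g
  w := Sum.elim G.w fun _ => l
  A := fromBlocks G.A 0 0 1
  B := fromBlocks G.B 0 0 1
  q := Sum.elim (fun a => rename Sum.inl (G.q a)) fun k => rename Sum.inl (q k)
  ex := G.ex.disjSum ∅

/-- standing hypotheses for a new level -/
structure Nw (G : GT ι) (s g l : ℕ) (q : κ → MvPolynomial ι ℝ) : Prop where
  ok : G.Ok s
  lo : ∀ a, G.g a < g
  gs : g < s
  l1 : 1 ≤ l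
  ls : l ≤ s
  hm : ∀ k, G.Hm l (q k)

/-- the old forms `q` in terms of the new tower over the dilated base -/
def Tf (G : GT ι) (g l n : ℕ) (q : κ → MvPolynomial ι ℝ) {κ' : Type} [Fintype κ'] [DecidableEq κ']
    (q' : κ' → MvPolynomial ι ℝ) (I b : κ → MvPolynomial (ι ⊕ κ') ℝ) (β : ℝ) : Prop :=
  ∀ k, IsZ (I k) ∧ (ext G g l q').Hm l (I k) ∧ (ext G g l q').Hm l (b k) ∧ l1 (b k) ≤ β ∧
    C ((n : ℝ) ^ l) * rename Sum.inl (q k) - I k = aeval (ext (dlG G n) g l q').th (b k)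

/-- elimination of relations -/
def TRA : Prop := ∀ (s g l : ℕ) (ι κ : Type) [Fintype ι] [DecidableEq ι] [Fintype κ] [DecidableEq κ]
  (G : GT ι) (q : κ → MvPolynomial ι ℝ) (H : ℝ), Nw G s g l q → 1 ≤ H →
    ∃ (κ' : Type) (_ : Fintype κ') (_ : DecidableEq κ') (n : ℕ) (q' : κ' → MvPolynomial ι ℝ)
      (I b : κ → MvPolynomial (ι ⊕ κ') ℝ), Fintype.card κ' ≤ Fintype.card κ ∧ 1 ≤ n ∧
      (n : ℝ) ≤ H ^ Fintype.card κ ∧ (∀ k, G.Hm l (q' k)) ∧ (ext (dlG G n) g l q').Big g H ∧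
      Tf G g l n q q' I b (((Fintype.card κ + 1) * H) ^ Fintype.card κ)

/-- regularity of the extension -/
def EXR : Prop := ∀ (s g l : ℕ) (ι κ : Type) [Fintype ι] [DecidableEq ι] [Fintype κ] [DecidableEq κ]
  (G : GT ι) (q : κ → MvPolynomial ι ℝ) (WW : ℕ → ℝ) (c Y : ℝ), Nw G s g l q → 1 ≤ c → 1 ≤ Y →
    Rr G s WW c Y → (ext G g l q).Big g (Real.exp (c * Y)) →
    Rr (ext G g l q) s (fun g' => if g' < g then WW g' else 0) c Y

/-- one new level -/
def TR1 : Prop := ∀ (s g l : ℕ) (ι κ : Type) [Fintype ι] [DecidableEq ι] [Fintype κ] [DecidableEq κ]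
  (G : GT ι) (q : κ → MvPolynomial ι ℝ) (WW : ℕ → ℝ) (P c Y L : ℝ), Nw G s g l q → Sz ι P Y →
    1 ≤ c → s * Fintype.card κ * (c * Y) ≤ L → Rr G s WW c (Y + (s + 2) * (L + P ^ 2)) →
    ∃ (κ' : Type) (_ : Fintype κ') (_ : DecidableEq κ') (n : ℕ) (q' : κ' → MvPolynomial ι ℝ)
      (I b : κ → MvPolynomial (ι ⊕ κ') ℝ), Fintype.card κ' ≤ Fintype.card κ ∧ 1 ≤ n ∧
      (n : ℝ) ≤ Real.exp (Fintype.card κ * (c * Y)) ∧ Nw (dlG G n) s g l q' ∧
      Rr (ext (dlG G n) g l q') s (fun g' => if g' < g then WW g' + (L + P ^ 2) else 0) c Y ∧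
      Tf G g l n q q' I b (((Fintype.card κ + 1) * Real.exp (c * Y)) ^ Fintype.card κ)

variable {G : GT ι} {s g l : ℕ} {q : κ → MvPolynomial ι ℝ}

theorem th_inl (G : GT ι) (g l : ℕ) (q : κ → MvPolynomial ι ℝ) (a : ι) :
    (ext G g l q).th (Sum.inl a) = rename Sum.inl (G.th a) := by
  simp [GT.th, ext, Fintype.sum_sum_type]

theorem th_inr (G : GT ι) (g l : ℕ) (q : κ → MvPolynomial ι ℝ) (k : κ) :
    (ext G g l q).th (Sum.inr k) = X (Sum.inr k) - rename Sum.inl (q k) := by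
  simp [GT.th, ext, Fintype.sum_sum_type, one_apply, apply_ite C, ite_mul]

theorem hm_inl (g l : ℕ) (q : κ → MvPolynomial ι ℝ) {e : ℕ} {F : MvPolynomial ι ℝ} (h : G.Hm e F) :
    (ext G g l q).Hm e (rename Sum.inl F) := by
  intro m hm
  obtain ⟨u, rfl, hu⟩ := coeff_rename_ne_zero _ _ _ hm
  rw [← h hu, Finsupp.weight_apply, Finsupp.weight_apply,
    Finsupp.sum_mapDomain_index (by simp) (fun _ _ _ => add_smul _ _ _)]
  rfl

theorem lo_inl (g l : ℕ) (q : κ → MvPolynomial ι ℝ) {g' : ℕ} {F : MvPolynomial ι ℝ} (h : G.Lo g' F) :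
    (ext G g l q).Lo g' (rename Sum.inl F) := by
  intro b hb
  obtain ⟨a, ha, rfl⟩ := mem_image.1 (vars_rename _ _ hb)
  exact h a ha

theorem ext_ok (h : Nw G s g l q) : (ext G g l q).Ok s where
  w1 := by rintro (a | k); exacts [h.ok.w1 a, h.l1]
  ws := by rintro (a | k); exacts [h.ok.ws a, h.ls]
  gs := by rintro (a | k); exacts [h.ok.gs a, h.gs]
  AB := by simp [ext, fromBlocks_multiply, h.ok.AB]
  blk := by
    rintro (a | k) (b | k') hab
    · exact h.ok.blk a b hab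
    · simp [ext] at hab
    · simp [ext] at hab
    · exact ⟨rfl, rfl⟩
  qh := by rintro (a | k); exacts [hm_inl g l q (h.ok.qh a), hm_inl g l q (h.hm k)]
  ql := by rintro (a | k); exacts [lo_inl g l q (h.ok.ql a), lo_inl g l q fun b _ => h.lo b]
  qe := by
    rintro (a | k) ha
    · have : a ∈ G.ex := by simpa [ext] using ha
      simp [ext, h.ok.qe a this]
    · simp [ext] at ha

end

end Vale.Agent.P057T.K4
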