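import Vale.Agent.P057T.K4.Tr0
import Vale.Agent.P057T.Eq.Bdw
import Vale.Agent.P057T.Cp.Rca

/-! Rows TRA and TR1. -/

open MvPolynomial Finset Matrix
open scoped Real

namespace Vale.Agent.P057T.K4

open Vale.Agent.P057T.Eq Vale.Agent.P057T.Cp Vale.Agent.P057T.L1

set_option linter.unusedSectionVars false

noncomputable section

variable {ι κ : Type} [Fintype ι] [DecidableEq ι] [Fintype κ] [DecidableEq κ]
variable {G : GT ι} {s g l : ℕ} {q : κ → MvPolynomial ι ℝ}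

theorem dl_rc (hG : G.Ok s) {n : ℕ} (hn : 1 ≤ n) :
    Rc G (diagonal fun a => (n : ℝ) ^ G.w a) (diagonal fun a => ((n : ℝ) ^ G.w a)⁻¹) ((n : ℝ) ^ s) where
  inv := by
    have h0 : (n : ℝ) ≠ 0 := Nat.cast_ne_zero.2 (by omega)
    rw [diagonal_mul_diagonal]
    simp only [mul_inv_cancel₀ (pow_ne_zero _ h0), diagonal_one]
  blk a b h := by
    by_cases hab : a = b
    · rw [hab]
      exact ⟨rfl, rfl⟩
    · simp [diagonal_apply_ne _ hab] at h
  nb a := by
    rw [sum_eq_single a (fun b _ hb => by rw [diagonal_apply_ne' _ hb, abs_zero]) (by simp),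
      diagonal_apply_eq, abs_of_nonneg (by positivity)]
    exact pow_le_pow_right₀ (Nat.one_le_cast.2 hn) (hG.ws a)

theorem dl_ok (hG : G.Ok s) {n : ℕ} (hn : 1 ≤ n) : (dlG G n).Ok s :=
  (rca s ι G _ _ _ hG (dl_rc hG hn)).1

theorem dl_nw (h : Nw G s g l q) {n : ℕ} (hn : 1 ≤ n) {κ' : Type} {q' : κ' → MvPolynomial ι ℝ}
    (h' : ∀ k, G.Hm l (q' k)) : Nw (dlG G n) s g l q' :=
  ⟨dl_ok h.ok hn, h.lo, h.gs, h.l1, h.ls, h'⟩

theorem dl_th (G : GT ι) (n : ℕ) (a : ι) : (dlG G n).th a = C ((n : ℝ) ^ G.w a) * G.th a := by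
  simp only [GT.th, dlG, rc, diagonal_mul, map_mul, mul_sum, mul_assoc]

theorem dl_one (G : GT ι) : dlG G 1 = G := by
  simp [dlG, rc]

theorem dl_dl (G : GT ι) (n n' : ℕ) : dlG (dlG G n) n' = dlG G (n * n') := by
  simp only [dlG, rc, ← Matrix.mul_assoc, diagonal_mul_diagonal, Matrix.mul_assoc G.B, Nat.cast_mul,
    mul_pow, mul_inv, mul_comm]

theorem dl_aeval (G : GT ι) (n : ℕ) {e : ℕ} {b : MvPolynomial ι ℝ} (hb : G.Hm e b) :
    aeval (dlG G n).th b = C ((n : ℝ) ^ e) * aeval G.th b := by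
  conv_lhs => rw [b.as_sum, map_sum]
  conv_rhs => rw [b.as_sum, map_sum, mul_sum]
  refine sum_congr rfl fun m hm => ?_
  rw [aeval_monomial, aeval_monomial, ← hb (mem_support_iff.1 hm), Finsupp.weight_apply,
    Finsupp.prod, Finsupp.prod, Finsupp.sum, ← prod_pow_eq_pow_sum, map_prod, mul_left_comm,
    ← prod_mul_distrib]
  congr 1
  refine prod_congr rfl fun a _ => ?_
  rw [dl_th, mul_pow, ← map_pow, ← pow_mul, smul_eq_mul, mul_comm (m a)]

theorem ext_aeval (G : GT ι) (g l : ℕ) (q : κ → MvPolynomial ι ℝ) (b : MvPolynomial ι ℝ) :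
    aeval (ext G g l q).th (rename Sum.inl b) = rename Sum.inl (aeval G.th b) := by
  rw [aeval_rename, comp_aeval_apply]
  exact congrArg (fun f => aeval f b) (funext fun a => th_inl G g l q a)

theorem aeval_congr {σ τ : Type} {f f' : σ → MvPolynomial τ ℝ} {F : MvPolynomial σ ℝ}
    (h : ∀ b ∈ F.vars, f b = f' b) : aeval f F = aeval f' F :=
  hom_congr_vars (f₁ := (aeval f : _ →ₐ[ℝ] _).toRingHom) (f₂ := (aeval f' : _ →ₐ[ℝ] _).toRingHom)
    (by ext; simp) (fun b hb _ => by simpa using h b hb) rfl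

theorem hom_aeval {σ τ : Type} {w : σ → ℕ} {w' : τ → ℕ} {φ : σ → MvPolynomial τ ℝ}
    (hφ : ∀ a, IsWeightedHomogeneous w' (φ a) (w a)) {F : MvPolynomial σ ℝ} {e : ℕ}
    (h : IsWeightedHomogeneous w F e) : IsWeightedHomogeneous w' (aeval φ F) e := by
  rw [F.as_sum, map_sum]
  refine IsWeightedHomogeneous.sum _ _ _ fun m hm => ?_
  rw [aeval_monomial, ← h (mem_support_iff.1 hm), Finsupp.weight_apply, Finsupp.prod, Finsupp.sum]
  exact (IsWeightedHomogeneous.prod _ _ _ fun a _ => (hφ a).pow (m a)).C_mul _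

theorem aeval_zero_hm {σ τ : Type} {w : σ → ℕ} {F : MvPolynomial σ ℝ} {e : ℕ} (he : 1 ≤ e)
    (h : IsWeightedHomogeneous w F e) : aeval (fun _ => (0 : MvPolynomial τ ℝ)) F = 0 := by
  rw [aeval_zero', constantCoeff_eq, h.coeff_eq_zero 0 (by simp; omega), map_zero]

/-- a failure of `Big` is a relation between the new forms -/
theorem rel (h : Nw G s g l q) {H : ℝ} (hB : ¬ (ext G g l q).Big g H) :
    ∃ (k : κ → ℤ) (j : κ) (I b : MvPolynomial ι ℝ), k j ≠ 0 ∧ (∀ i, |(k i : ℝ)| ≤ H) ∧ IsZ I ∧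
      G.Hm l I ∧ G.Hm l b ∧ l1 b ≤ H ∧ ∑ i, C (k i : ℝ) * q i + I = aeval G.th b := by
  unfold GT.Big at hB
  push Not at hB
  obtain ⟨e, k, I, hk, hI, hlo, hm, ⟨b, hb, hH⟩, a, ha, -⟩ := hB
  have k0 : ∀ a, k (Sum.inl a) = 0 := fun a => by
    by_contra hn
    exact (h.lo a).ne (hk _ hn).1
  obtain ⟨j, rfl⟩ : ∃ j, a = Sum.inr j := by
    rcases a with a | j
    exacts [absurd (k0 a) ha, ⟨j, rfl⟩]
  obtain rfl : l = e := (hk _ ha).2
  have hv : ∀ i, Sum.inr i ∉ I.vars := fun i hi => lt_irrefl g (hlo _ hi)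
  have hI0 : G.Hm l (aeval (Sum.elim X fun _ => 0 : ι ⊕ κ → MvPolynomial ι ℝ) I) := by
    refine hom_aeval (fun x => ?_) hm
    rcases x with a | i
    exacts [isWeightedHomogeneous_X ℝ _ a, isWeightedHomogeneous_zero _ _ _]
  have e1 : ∑ i, C (k (Sum.inr i) : ℝ) * q i +
      aeval (Sum.elim X fun _ => 0 : ι ⊕ κ → MvPolynomial ι ℝ) I =
      aeval G.th (aeval (Sum.elim X fun _ => 0 : ι ⊕ κ → MvPolynomial ι ℝ) b) := by
    have h1 := congrArg (aeval (Sum.elim X q : ι ⊕ κ → MvPolynomial ι ℝ)) hb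
    rw [comp_aeval_apply, map_add] at h1
    rw [comp_aeval_apply]
    refine Eq.trans ?_ (h1.symm.trans (congrArg (fun f => aeval f b) (funext fun x => ?_)))
    · congr 1
      · simp [lin, cz, Fintype.sum_sum_type, k0]
      · refine aeval_congr fun x hx => ?_
        rcases x with a | i
        exacts [rfl, absurd hx (hv i)]
    · rcases x with a | i
      · rw [th_inl, aeval_rename]
        simp
      · rw [th_inr, map_sub, aeval_rename]
        simp
  have e2 : aeval (Sum.elim (fun _ => 0) X : ι ⊕ κ → MvPolynomial κ ℝ) b =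
      ∑ i, C (k (Sum.inr i) : ℝ) * X i := by
    have h1 := congrArg (aeval (Sum.elim (fun _ => 0) X : ι ⊕ κ → MvPolynomial κ ℝ)) hb
    have h2 : aeval (Sum.elim (fun _ => 0) X : ι ⊕ κ → MvPolynomial κ ℝ) I = 0 := by
      refine (aeval_congr fun x hx => ?_).trans (aeval_zero_hm h.l1 hm)
      rcases x with a | i
      exacts [rfl, absurd hx (hv i)]
    rw [comp_aeval_apply, map_add, h2, add_zero] at h1
    refine ((congrArg (fun f => aeval f b) (funext fun x => ?_)).trans h1).trans ?_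
    · rcases x with a | i
      · rw [th_inl, aeval_rename]
        exact (aeval_zero_hm (h.ok.w1 a) (th_hm h.ok a)).symm
      · rw [th_inr, map_sub, aeval_rename, aeval_X]
        exact (sub_eq_self.2 (aeval_zero_hm h.l1 (h.hm i))).symm
    · simp [lin, cz, Fintype.sum_sum_type]
  refine ⟨fun i => k (Sum.inr i), j, _, _, ha, fun i => ?_, IsInt.aeval hI ?_, hI0, ?_, ?_, e1⟩
  · have h1 := abs_coeff_le (aeval (Sum.elim (fun _ => 0) X : ι ⊕ κ → MvPolynomial κ ℝ) b)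
      (Finsupp.single i 1)
    have h2 := nrm_aeval_le_one (f := (Sum.elim (fun _ => 0) X : ι ⊕ κ → MvPolynomial κ ℝ))
      (by rintro (a | i) <;> simp) b
    refine le_trans (le_of_eq ?_) (h1.trans (h2.trans hH))
    rw [e2, coeff_sum]
    simp only [coeff_C_mul, coeff_X, Finsupp.single_left_inj one_ne_zero, mul_ite, mul_one, mul_zero,
      sum_ite_eq', mem_univ, if_true]
  · rintro (a | i)
    exacts [isInt_X a, isInt_zero]
  · refine (hm_iff h.ok l _).2 ?_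
    rw [← e1]
    exact (IsWeightedHomogeneous.sum _ _ _ fun i _ => (h.hm i).C_mul _).add hI0
  · exact (nrm_aeval_le_one (by rintro (a | i) <;> simp) b).trans hH

theorem tra_aux (s g l : ℕ) (ι : Type) [Fintype ι] [DecidableEq ι] (H : ℝ) (hH : 1 ≤ H) (r : ℕ) :
    ∀ (κ : Type) [Fintype κ] [DecidableEq κ] (G : GT ι) (q : κ → MvPolynomial ι ℝ),
    Fintype.card κ = r → Nw G s g l q →
    ∃ (κ' : Type) (_ : Fintype κ') (_ : DecidableEq κ') (n : ℕ) (q' : κ' → MvPolynomial ι ℝ)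
      (I b : κ → MvPolynomial (ι ⊕ κ') ℝ), Fintype.card κ' ≤ r ∧ 1 ≤ n ∧
      (n : ℝ) ≤ H ^ r ∧ (∀ k, G.Hm l (q' k)) ∧ (ext (dlG G n) g l q').Big g H ∧
      Tf G g l n q q' I b (((r + 1) * H) ^ r) := by
  induction r using Nat.strong_induction_on with
  | _ r ih =>
  intro κ _ _ G q hr h
  have hr0 : (0 : ℝ) ≤ r := Nat.cast_nonneg r
  by_cases hB : (ext G g l q).Big g H
  · refine ⟨κ, inferInstance, inferInstance, 1, q, fun k => X (Sum.inr k), fun k => -X (Sum.inr k),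
      hr.le, le_rfl, by simpa using one_le_pow₀ hH, h.hm, by rwa [dl_one], fun k =>
      ⟨isInt_X _, isWeightedHomogeneous_X ℝ _ _, (isWeightedHomogeneous_X ℝ _ _).neg, ?_, ?_⟩⟩
    · refine le_trans (le_of_eq ?_) (one_le_pow₀ (by nlinarith))
      exact (nrm_neg _).trans (nrm_X _)
    · simp [th_inr]
  obtain ⟨k, j, I0, b0, hj, hk, hI0, mI0, mb0, lb0, e0⟩ := rel h hB
  obtain ⟨r, rfl⟩ : ∃ r', r = r' + 1 := ⟨r - 1, by
    have := Fintype.card_pos_iff.2 ⟨j⟩
    omega⟩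
  obtain ⟨l, rfl⟩ : ∃ l', l = l' + 1 := ⟨l - 1, by
    have := h.l1
    omega⟩
  have hc : Fintype.card {i // i ≠ j} = r := by simp [hr]
  have hn1 : 1 ≤ (k j).natAbs := Int.natAbs_pos.2 hj
  have hn2 : (((k j).natAbs : ℕ) : ℝ) = |(k j : ℝ)| := by
    rw [Nat.cast_natAbs, Int.cast_abs]
  have hn3 : 1 ≤ |(k j : ℝ)| := hn2 ▸ Nat.one_le_cast.2 hn1
  have hj0 : (k j : ℝ) ≠ 0 := Int.cast_ne_zero.2 hj
  obtain ⟨κ', _, _, n, q', I, b, a1, a2, a3, a4, a5, a6⟩ := ih r (Nat.lt_succ_self r) {i // i ≠ j}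
    (dlG G (k j).natAbs) (fun i => C (|(k j : ℝ)| ^ l) * q i) hc
    (dl_nw h hn1 fun i => (h.hm i).C_mul _)
  rw [dl_dl] at a5
  have hs : ((k j).sign : ℝ) * k j = |(k j : ℝ)| := by
    exact_mod_cast Int.sign_mul_self (k j)
  have hs1 : |((k j).sign : ℝ)| = 1 := by
    rw [← Int.cast_abs, Int.abs_sign_of_ne_zero hj, Int.cast_one]
  have hβ : 1 ≤ (((r : ℝ) + 1) * H) ^ r := one_le_pow₀ (by nlinarith [Nat.cast_nonneg (α := ℝ) r])
  have hβ2 : (((r : ℝ) + 1) * H) * (((r : ℝ) + 1) * H) ^ r ≤ ((((r + 1 : ℕ) : ℝ) + 1) * H) ^ (r + 1) := by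
    rw [← pow_succ']
    push_cast
    gcongr
    linarith
  have hid : ∀ i : {i // i ≠ j}, C (((((k j).natAbs * n : ℕ)) : ℝ) ^ (l + 1)) * rename Sum.inl (q i) =
      C |(k j : ℝ)| * (I i + aeval (ext (dlG G ((k j).natAbs * n)) g (l + 1) q').th (b i)) := by
    intro i
    have h1 := (a6 i).2.2.2.2
    rw [dl_dl] at h1
    rw [← h1, Nat.cast_mul, hn2]
    simp only [map_mul, map_pow, rename_C]
    ring
  refine ⟨κ', inferInstance, inferInstance, (k j).natAbs * n, q',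
    fun i => if hi : i = j then -C ((k j).sign : ℝ) * (∑ i : {i // i ≠ j}, C (k i : ℝ) * I i +
      C (((k j).natAbs ^ l * n ^ (l + 1) : ℤ) : ℝ) * rename Sum.inl I0)
      else C (((k j).natAbs : ℤ) : ℝ) * I ⟨i, hi⟩,
    fun i => if hi : i = j then -C ((k j).sign : ℝ) * ∑ i : {i // i ≠ j}, C (k i : ℝ) * b i +
      C (k j : ℝ)⁻¹ * rename Sum.inl b0 else C |(k j : ℝ)| * b ⟨i, hi⟩,
    a1.trans (Nat.le_succ r), Nat.mul_pos hn1 a2, ?_, a4, a5, fun i => ?_⟩
  · rw [Nat.cast_mul, hn2, pow_succ']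
    exact mul_le_mul (hk j) a3 (Nat.cast_nonneg _) (by linarith)
  by_cases hi : i = j
  · subst hi
    simp only [dif_pos]
    refine ⟨(isInt_C _).neg.mul ((isInt_sum fun i _ => (isInt_C _).mul (a6 i).1).add
      ((isInt_C _).mul (IsInt.rename hI0 _))), ?_, ?_, ?_, ?_⟩
    · rw [← map_neg]
      exact ((IsWeightedHomogeneous.sum _ _ _ fun i _ => (a6 i).2.1.C_mul _).add
        ((hm_inl g _ q' mI0).C_mul _)).C_mul _
    · rw [← map_neg]
      exact ((IsWeightedHomogeneous.sum _ _ _ fun i _ => (a6 i).2.2.1.C_mul _).C_mul _).add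
        ((hm_inl g _ q' mb0).C_mul _)
    · refine le_trans ((nrm_add_le _ _).trans ?_) hβ2
      rw [← map_neg, nrm_C_mul, nrm_C_mul, abs_neg, hs1, one_mul, abs_inv]
      have c1 : nrm (∑ x : {x // x ≠ i}, C (k x : ℝ) * b x) ≤ r * (H * (((r : ℝ) + 1) * H) ^ r) := by
        refine (nrm_sum_le _ _).trans ((sum_le_card_nsmul _ _ _ fun x _ => ?_).trans_eq
          (by rw [card_univ, hc, nsmul_eq_mul]))
        rw [nrm_C_mul]
        have c2 := (a6 x).2.2.2.1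
        exact mul_le_mul (hk x) c2 (nrm_nonneg _) (by linarith)
      have c3 : |(k i : ℝ)|⁻¹ * nrm (rename (Sum.inl : ι → ι ⊕ κ') b0) ≤ H :=
        (mul_le_of_le_one_left (nrm_nonneg _) (inv_le_one_of_one_le₀ hn3)).trans
          ((nrm_rename_le _ _).trans lb0)
      nlinarith [mul_le_mul_of_nonneg_left hβ (by linarith : (0 : ℝ) ≤ H)]
    · have c1 := congrArg (rename (Sum.inl : ι → ι ⊕ κ')) e0
      rw [map_add, map_sum, Fintype.sum_eq_add_sum_subtype_ne _ i] at c1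
      simp only [map_mul, rename_C] at c1
      have c2 : ∑ x : {x // x ≠ i}, C (((((k i).natAbs * n : ℕ)) : ℝ) ^ (l + 1)) *
          (C (k x : ℝ) * rename (Sum.inl : ι → ι ⊕ κ') (q x)) =
          C |(k i : ℝ)| * (∑ x : {x // x ≠ i}, C (k x : ℝ) * I x + ∑ x : {x // x ≠ i}, C (k x : ℝ) *
            aeval (ext (dlG G ((k i).natAbs * n)) g (l + 1) q').th (b x)) := by
        rw [← sum_add_distrib, mul_sum]
        refine sum_congr rfl fun x _ => ?_
        rw [mul_left_comm, hid x]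
        ring
      rw [← mul_sum] at c2
      have c3 : C (k i : ℝ)⁻¹ * C (k i : ℝ) = (1 : MvPolynomial (ι ⊕ κ') ℝ) := by
        rw [← map_mul, inv_mul_cancel₀ hj0, map_one]
      have c4 : C ((k i).sign : ℝ) = C (k i : ℝ)⁻¹ * (C |(k i : ℝ)| : MvPolynomial (ι ⊕ κ') ℝ) := by
        rw [← map_mul, ← hs]
        congr 1
        field_simp
      have c5 : C |(k i : ℝ)| * C (((k i).natAbs ^ l * n ^ (l + 1) : ℤ) : ℝ) =
          (C (((((k i).natAbs * n : ℕ)) : ℝ) ^ (l + 1)) : MvPolynomial (ι ⊕ κ') ℝ) := by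
        rw [← map_mul, ← hn2, Int.cast_mul, Int.cast_pow, Int.cast_pow, Int.cast_natCast,
          Int.cast_natCast, Nat.cast_mul]
        congr 1
        ring
      simp only [map_add, map_mul, map_neg, map_sum, aeval_C, algebraMap_eq, ext_aeval,
        dl_aeval G _ mb0, rename_C]
      rw [c4, ← c1]
      linear_combination (-C (((((k i).natAbs * n : ℕ)) : ℝ) ^ (l + 1)) * rename Sum.inl (q i)) * c3 -
        C (k i : ℝ)⁻¹ * c2 + (C (k i : ℝ)⁻¹ * rename Sum.inl I0) * c5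
  · simp only [dif_neg hi]
    refine ⟨(isInt_C _).mul (a6 _).1, (a6 _).2.1.C_mul _, (a6 _).2.2.1.C_mul _, ?_, ?_⟩
    · refine le_trans ?_ hβ2
      refine (nrm_C_mul _ _).trans_le ?_
      rw [abs_abs]
      have c2 := (a6 ⟨i, hi⟩).2.2.2.1
      refine mul_le_mul ((hk j).trans ?_) c2 (nrm_nonneg _) (by positivity)
      nlinarith [Nat.cast_nonneg (α := ℝ) r]
    · rw [hid ⟨i, hi⟩, map_mul, aeval_C, algebraMap_eq, Int.cast_natCast, hn2]
      ring

theorem tra : TRA := fun s g l ι κ _ _ _ _ G q H h hH => tra_aux s g l ι H hH _ κ G q rfl h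

theorem tr1 (hE : EXR) (hR : RCR) : TR1 := by
  intro s g l ι κ _ _ _ _ G q WW P c Y L h hz hc hL hr
  have hY := hz.Y1
  have h0 : 0 ≤ c * Y := by positivity
  obtain ⟨κ', _, _, n, q', I, b, a1, a2, a3, a4, a5, a6⟩ :=
    tra s g l ι κ G q (Real.exp (c * Y)) h (Real.one_le_exp h0)
  rw [← Real.exp_nat_mul] at a3
  have h1 : (n : ℝ) ^ s ≤ Real.exp L := by
    refine (pow_le_pow_left₀ (Nat.cast_nonneg n) a3 s).trans ?_
    rw [← Real.exp_nat_mul, Real.exp_le_exp, ← mul_assoc]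
    exact hL
  have h2 := dl_rc h.ok a2
  have h3 := hR s ι G _ _ WW P c Y L hz hc (le_trans (by positivity) hL)
    ⟨h2.inv, h2.blk, fun a => (h2.nb a).trans h1⟩ hr
  exact ⟨κ', inferInstance, inferInstance, n, q', I, b, a1, a2, a3, dl_nw h a2 a4,
    hE s g l ι κ' _ q' _ c Y (dl_nw h a2 a4) hc hY h3 a5, a6⟩

end

end Vale.Agent.P057T.K4
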