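import Vale.Agent.P057T.K4.Tr1
import Vale.Agent.P057T.K4.Exr
import Vale.Agent.P057T.Cp.All

/-! Closed form of the row on one new level. -/

namespace Vale.Agent.P057T.K4

theorem tr1c : TR1 := tr1 exr Cp.All.rcrc

end Vale.Agent.P057T.K4
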